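import Vale.Agent.P022.H161.CLat
import Vale.Agent.P022.H420.L3.Pw
import Vale.Agent.P022.H527.L3.Mat

/-!
P022, level three, chapter C, row (b) of [C-ASM]: the ring of words in the operators acting on
integral cocycles with values in the polynomials of degree at most `w`, the same words over a
field, compatibility, stability of the coboundaries, and the output of the lattice half.
-/

namespace Vale.Agent.P022.H161.COp

open Vale.Agent.P022.H161.CLat Vale.Agent.P022.H420.L3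
open Vale.Agent.P022.H527.L3 hiding M2

/-- the integral matrices of the action of a group on polynomials. -/
noncomputable def AA (Γ : Subgroup S2) (w : ℕ) : Γ → Matrix (Fin (w + 1)) (Fin (w + 1)) ℤ :=
  fun γ i j => cf w ((γ : S2) : Matrix (Fin 2) (Fin 2) ℤ) j i

variable {Γ : Subgroup S2} {w : ℕ}

theorem actM_eq {R : Type*} [CommRing R] (γ : Γ) (p : Fin (w + 1) → R) :
    actM R (AA Γ w) γ p = act w (rho Γ γ) p := by
  funext i
  rw [actM_apply, act_apply]
  refine Finset.sum_congr rfl fun j _ => ?_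
  rw [zsmul_eq_mul]
  rfl

theorem AA_one : AA Γ w 1 = 1 := by
  ext i j
  have h : (((1 : Γ) : S2) : Matrix (Fin 2) (Fin 2) ℤ) = !![1, 0; 0, 1] := by
    rw [OneMemClass.coe_one, Matrix.SpecialLinearGroup.coe_one, Matrix.one_fin_two]
  rw [AA, h, cf_diag', Matrix.one_apply]
  simp

theorem AA_mul (g h : Γ) : AA Γ w (g * h) = AA Γ w h * AA Γ w g := by
  ext i j
  have e : (((g * h : Γ) : S2) : Matrix (Fin 2) (Fin 2) ℤ)
      = ((g : S2) : Matrix (Fin 2) (Fin 2) ℤ) * ((h : S2) : Matrix (Fin 2) (Fin 2) ℤ) := by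
    rw [Subgroup.coe_mul, Matrix.SpecialLinearGroup.coe_mul]
  rw [AA, e, cf_mul, Matrix.mul_apply]
  refine Finset.sum_congr rfl fun k _ => ?_
  rw [mul_comm]
  rfl

theorem act_smul {K : Type*} [CommRing K] (A : M2) (c : K) (p : Fin (w + 1) → K) :
    act w A (c • p) = c • act w A p := by
  funext i
  rw [act_apply, Pi.smul_apply, act_apply, smul_eq_mul, Finset.mul_sum]
  refine Finset.sum_congr rfl fun j _ => ?_
  rw [Pi.smul_apply, smul_eq_mul, zsmul_eq_mul, zsmul_eq_mul]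
  ring

variable {X Y : Type*} {ι : X → Type*} [∀ x, Fintype (ι x)] {α : ∀ x, ι x → M2}
  (r : ∀ x, Rep (rho Γ) (α x)) (c : Y → ℤ)

/-- the operator of a family on cocycles. -/
noncomputable def TR (R : Type*) [CommRing R] (w : ℕ) (x : X) :
    AddMonoid.End (Z1 (actM R (AA Γ w))) where
  toFun u := ⟨(r x).hc (act w) u, by
    intro g h
    have hu : ∀ γ γ', (u : Γ → Fin (w + 1) → R) (γ * γ')
        = act w (rho Γ γ') ((u : Γ → Fin (w + 1) → R) γ) + (u : Γ → Fin (w + 1) → R) γ' := by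
      intro γ γ'
      have := u.2 γ γ'
      rw [actM_eq] at this
      exact this
    rw [actM_eq]
    exact (r x).hc_cocycle (P := Fin (w + 1) → R) (act w) (act_mul w) _ hu g h⟩
  map_zero' := by
    apply Subtype.ext
    funext g
    simp [Rep.hc]
  map_add' := by
    intro u v
    apply Subtype.ext
    exact (r x).hc_add (P := Fin (w + 1) → R) (act w) (u : Γ → Fin (w + 1) → R)
      (v : Γ → Fin (w + 1) → R)

/-- words on cocycles. -/
noncomputable def rhoR (R : Type*) [CommRing R] (w : ℕ) :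
    FreeAlgebra ℤ (X ⊕ Y) →ₐ[ℤ] AddMonoid.End (Z1 (actM R (AA Γ w))) :=
  FreeAlgebra.lift ℤ (Sum.elim (TR r R w) (fun y => ((c y : ℤ) : AddMonoid.End _)))

/-- the operator of a family on all functions. -/
noncomputable def TK (K : Type*) [CommRing K] (w : ℕ) (x : X) :
    Module.End K (Γ → Fin (w + 1) → K) where
  toFun u := (r x).hc (act w) u
  map_add' u v := (r x).hc_add (act w) u v
  map_smul' a u := by
    funext g
    simp only [Rep.hc, Pi.smul_apply, RingHom.id_apply, Finset.smul_sum, act_smul]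

/-- words on functions. -/
noncomputable def tauK (K : Type*) [CommRing K] (w : ℕ) :
    FreeAlgebra ℤ (X ⊕ Y) →ₐ[ℤ] Module.End K (Γ → Fin (w + 1) → K) :=
  FreeAlgebra.lift ℤ (Sum.elim (TK r K w) (fun y => ((c y : ℤ) : Module.End K _)))

theorem rhoR_inl (R : Type*) [CommRing R] (x : X) (u : Z1 (actM R (AA Γ w))) :
    ((rhoR r c R w (FreeAlgebra.ι ℤ (Sum.inl x)) u : Z1 (actM R (AA Γ w))) :
      Γ → Fin (w + 1) → R) = (r x).hc (act w) (u : Γ → Fin (w + 1) → R) := by
  rw [rhoR, FreeAlgebra.lift_ι_apply]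
  rfl

theorem rhoR_inr (R : Type*) [CommRing R] (y : Y) (u : Z1 (actM R (AA Γ w))) :
    ((rhoR r c R w (FreeAlgebra.ι ℤ (Sum.inr y)) u : Z1 (actM R (AA Γ w))) :
      Γ → Fin (w + 1) → R) = c y • (u : Γ → Fin (w + 1) → R) := by
  rw [rhoR, FreeAlgebra.lift_ι_apply]
  change ((((c y : ℤ) : AddMonoid.End (Z1 (actM R (AA Γ w)))) u : Z1 (actM R (AA Γ w))) :
    Γ → Fin (w + 1) → R) = _
  rw [AddMonoid.End.intCast_apply]
  rfl

theorem tauK_inl (K : Type*) [CommRing K] (x : X) (u : Γ → Fin (w + 1) → K) :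
    tauK r c K w (FreeAlgebra.ι ℤ (Sum.inl x)) u = (r x).hc (act w) u := by
  rw [tauK, FreeAlgebra.lift_ι_apply]
  rfl

theorem tauK_inr (K : Type*) [CommRing K] (y : Y) (u : Γ → Fin (w + 1) → K) :
    tauK r c K w (FreeAlgebra.ι ℤ (Sum.inr y)) u = c y • u := by
  rw [tauK, FreeAlgebra.lift_ι_apply]
  change ((c y : ℤ) : Module.End K (Γ → Fin (w + 1) → K)) u = _
  rw [← zsmul_one, LinearMap.smul_apply]
  rfl

/-- words commute with the change of coefficients. -/
theorem tau_toC (K : Type*) [Field K] (Q : FreeAlgebra ℤ (X ⊕ Y)) :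
    ∀ u : Z1 (actM ℤ (AA Γ w)), tauK r c K w Q (toC (u : Γ → Fin (w + 1) → ℤ))
      = toC ((rhoR r c ℤ w Q u : Z1 (actM ℤ (AA Γ w))) : Γ → Fin (w + 1) → ℤ) := by
  induction Q using FreeAlgebra.induction with
  | grade0 n =>
    intro u
    rw [AlgHom.commutes, AlgHom.commutes]
    have e1 : ((algebraMap ℤ (AddMonoid.End (Z1 (actM ℤ (AA Γ w)))) n u :
        Z1 (actM ℤ (AA Γ w))) : Γ → Fin (w + 1) → ℤ) = n • (u : Γ → Fin (w + 1) → ℤ) := by
      rw [eq_intCast, AddMonoid.End.intCast_apply]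
      rfl
    have e2 : algebraMap ℤ (Module.End K (Γ → Fin (w + 1) → K)) n
        (toC (u : Γ → Fin (w + 1) → ℤ)) = n • toC (K := K) (u : Γ → Fin (w + 1) → ℤ) := by
      rw [eq_intCast, ← zsmul_one, LinearMap.smul_apply]
      rfl
    rw [e1, e2]
    funext g i
    simp [toC]
  | grade1 s =>
    intro u
    rcases s with x | y
    · rw [tauK_inl, rhoR_inl]
      funext g i
      simp only [Rep.hc, toC, Finset.sum_apply, Int.cast_sum]
      refine Finset.sum_congr rfl fun k _ => ?_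
      exact act_map (Int.castAddHom K) w _ _ i
    · rw [tauK_inr, rhoR_inr]
      funext g i
      simp [toC]
  | mul a b ha hb =>
    intro u
    rw [map_mul, map_mul]
    change tauK r c K w a (tauK r c K w b _) = toC ((rhoR r c ℤ w a (rhoR r c ℤ w b u) :
      Z1 (actM ℤ (AA Γ w))) : Γ → Fin (w + 1) → ℤ)
    rw [hb, ha]
  | add a b ha hb =>
    intro u
    rw [map_add, map_add, LinearMap.add_apply, ha, hb, ← toC_add]
    rfl

/-- words preserve coboundaries. -/
theorem tau_B1 (K : Type*) [CommRing K] (Q : FreeAlgebra ℤ (X ⊕ Y)) :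
    ∀ u ∈ B1 (actM K (AA Γ w)), tauK r c K w Q u ∈ B1 (actM K (AA Γ w)) := by
  induction Q using FreeAlgebra.induction with
  | grade0 n =>
    intro u hu
    rw [AlgHom.commutes, eq_intCast, ← zsmul_one, LinearMap.smul_apply]
    exact (B1 (actM K (AA Γ w))).zsmul_mem hu n
  | grade1 s =>
    intro u hu
    rcases s with x | y
    · rw [tauK_inl]
      obtain ⟨p, hp⟩ := hu
      refine ⟨∑ i, act w (α x i) p, fun g => ?_⟩
      rw [actM_eq]
      exact (r x).hc_cob (act w) (act_mul w) p u (fun γ => by rw [hp, actM_eq]) g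
    · rw [tauK_inr]
      exact (B1 (actM K (AA Γ w))).zsmul_mem hu _
  | mul a b ha hb =>
    intro u hu
    rw [map_mul]
    exact ha _ (hb _ hu)
  | add a b ha hb =>
    intro u hu
    rw [map_add, LinearMap.add_apply]
    exact (B1 (actM K (AA Γ w))).add_mem (ha _ hu) (hb _ hu)

/-- equivariance modulo coboundaries passes from generators to words. -/
theorem hword {K : Type*} [Field K] {S : Type*} [AddCommGroup S] [Module K S]
    (σ : FreeAlgebra ℤ (X ⊕ Y) →ₐ[ℤ] Module.End K S) (Φ : S →ₗ[K] (Γ → Fin (w + 1) → K))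
    (hx : ∀ x f, Φ (σ (FreeAlgebra.ι ℤ (Sum.inl x)) f) - (r x).hc (act w) (Φ f)
      ∈ B1 (actM K (AA Γ w)))
    (hy : ∀ y f, Φ (σ (FreeAlgebra.ι ℤ (Sum.inr y)) f) - c y • Φ f ∈ B1 (actM K (AA Γ w)))
    (Q : FreeAlgebra ℤ (X ⊕ Y)) :
    ∀ f, Φ (σ Q f) - tauK r c K w Q (Φ f) ∈ B1 (actM K (AA Γ w)) := by
  induction Q using FreeAlgebra.induction with
  | grade0 n =>
    intro f
    rw [AlgHom.commutes, AlgHom.commutes, eq_intCast, eq_intCast, ← zsmul_one, ← zsmul_one,
      LinearMap.smul_apply, LinearMap.smul_apply]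
    change Φ (n • f) - n • Φ f ∈ _
    rw [map_zsmul, sub_self]
    exact (B1 (actM K (AA Γ w))).zero_mem
  | grade1 s =>
    intro f
    rcases s with x | y
    · rw [tauK_inl]; exact hx x f
    · rw [tauK_inr]; exact hy y f
  | mul a b ha hb =>
    intro f
    rw [map_mul, map_mul]
    change Φ (σ a (σ b f)) - tauK r c K w a (tauK r c K w b (Φ f)) ∈ _
    have h1 := ha (σ b f)
    have h2 := tau_B1 r c K a _ (hb f)
    have h3 := (B1 (actM K (AA Γ w))).add_mem h1 h2
    rw [map_sub] at h3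
    have e : Φ (σ a (σ b f)) - tauK r c K w a (tauK r c K w b (Φ f))
        = Φ (σ a (σ b f)) - tauK r c K w a (Φ (σ b f))
          + (tauK r c K w a (Φ (σ b f)) - tauK r c K w a (tauK r c K w b (Φ f))) := by abel
    rw [e]; exact h3
  | add a b ha hb =>
    intro f
    rw [map_add, map_add, LinearMap.add_apply, LinearMap.add_apply, map_add]
    have h3 := (B1 (actM K (AA Γ w))).add_mem (ha f) (hb f)
    have e : Φ (σ a f) + Φ (σ b f) - (tauK r c K w a (Φ f) + tauK r c K w b (Φ f))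
        = Φ (σ a f) - tauK r c K w a (Φ f) + (Φ (σ b f) - tauK r c K w b (Φ f)) := by abel
    rw [e]; exact h3

/-- **the output of the lattice half for words in the operators.** -/
theorem word_out [Group.FG Γ] {K : Type*} [Field K] [CharZero K] {S : Type*} [AddCommGroup S]
    [Module K S] (σ : FreeAlgebra ℤ (X ⊕ Y) →ₐ[ℤ] Module.End K S)
    (Φ : S →ₗ[K] (Γ → Fin (w + 1) → K))
    (hΦ : ∀ f (g h : Γ), Φ f (g * h) = act w (rho Γ h) (Φ f g) + Φ f h)
    (hx : ∀ x f, ∃ p, ∀ g, Φ (σ (FreeAlgebra.ι ℤ (Sum.inl x)) f) g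
      - (r x).hc (act w) (Φ f) g = act w (rho Γ g) p - p)
    (hy : ∀ y f, ∃ p, ∀ g, Φ (σ (FreeAlgebra.ι ℤ (Sum.inr y)) f) g - c y • Φ f g
      = act w (rho Γ g) p - p)
    (hinj : ∀ f p, (∀ g, Φ f g = act w (rho Γ g) p - p) → f = 0) :
    ∃ e : ℤ, e ≠ 0 ∧ ∀ (n : ℕ) (Q : FreeAlgebra ℤ (X ⊕ Y)),
      (∀ u : Z1 (actM ℤ (AA Γ w)), Div (actM ℤ (AA Γ w)) n
        ((rhoR r c ℤ w Q u : Z1 (actM ℤ (AA Γ w))) : Γ → Fin (w + 1) → ℤ)) →
      ∃ R : FreeAlgebra ℤ (X ⊕ Y), ∀ f, (e : K) • σ Q f = (2 ^ n : K) • σ R f := by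
  have hact : ∀ (g : Γ) (p : Fin (w + 1) → K), actM K (AA Γ w) g p = act w (rho Γ g) p :=
    fun g p => actM_eq g p
  have hx' : ∀ x f, Φ (σ (FreeAlgebra.ι ℤ (Sum.inl x)) f) - (r x).hc (act w) (Φ f)
      ∈ B1 (actM K (AA Γ w)) := by
    intro x f
    obtain ⟨p, hp⟩ := hx x f
    exact ⟨p, fun g => by rw [hact]; exact hp g⟩
  have hy' : ∀ y f, Φ (σ (FreeAlgebra.ι ℤ (Sum.inr y)) f) - c y • Φ f
      ∈ B1 (actM K (AA Γ w)) := by
    intro y f
    obtain ⟨p, hp⟩ := hy y f
    exact ⟨p, fun g => by rw [hact]; exact hp g⟩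
  exact c_out AA_one AA_mul (rhoR r c ℤ w).toRingHom (fun Q => tauK r c K w Q)
    (fun Q u => tau_toC r c K Q u) (fun Q f => σ Q f) Φ
    (fun f g h => by rw [hact]; exact hΦ f g h)
    (fun Q f => hword r c σ Φ hx' hy' Q f)
    (fun f hf => by
      obtain ⟨p, hp⟩ := hf
      exact hinj f p (fun g => by rw [hp, hact]))

end Vale.Agent.P022.H161.COp
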