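import Vale.Agent.P022.H161.COut
import Vale.Agent.P022.H420.L3.Wd
import Vale.Agent.P022.H239.L3.Act

/-!
P022, level three, chapter C: an integral cocycle on `Gamma1 3` (odd weight `w`) whose values on
the principal part of level `2 ^ M` are divisible by `2 ^ (n + 1)` is, twice, a coboundary modulo
`2 ^ (n + 1)`.
-/

open CongruenceSubgroup
open scoped MatrixGroups

namespace Vale.Agent.P022.H161.CDiv

open Vale.Agent.P022 Vale.Agent.P022.L3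
open Vale.Agent.P022.H161.CLat Vale.Agent.P022.H161.COp Vale.Agent.P022.H161.COut
open Vale.Agent.P022.H527.L3 hiding M2
open Vale.Agent.P022.H420.L3

variable {w : ℕ}

theorem exists_of_mod (m : ℕ) (p : Fin (w + 1) → ℤ) (h : ∀ j, ((p j : ℤ) : ZMod m) = 0) :
    ∃ x : Fin (w + 1) → ℤ, p = m • x := by
  have hj : ∀ j, ∃ x : ℤ, p j = m * x := fun j =>
    (ZMod.intCast_zmod_eq_zero_iff_dvd _ _).1 (h j)
  choose x hx using hj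
  exact ⟨x, funext fun j => by rw [Pi.smul_apply, nsmul_eq_mul, hx j]⟩

/-- the principal part of level `2 ^ M` as a subgroup of `Gamma1 3`. -/
def PP (M : ℕ) : Subgroup (Gamma1 3) where
  carrier := {γ | InP M γ}
  one_mem' := inP_one M
  mul_mem' := fun h h' => h.mul h'
  inv_mem' := by
    intro γ h
    have hc := InP.cls h
    obtain ⟨h10, h01, h11⟩ := h
    have e : ((γ⁻¹ : Gamma1 3) : SL(2, ℤ)) = (γ : SL(2, ℤ))⁻¹ := rfl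
    change InP M ((γ⁻¹ : Gamma1 3) : SL(2, ℤ))
    rw [e]
    refine ⟨?_, ?_, ?_⟩
    · have : ((γ : SL(2, ℤ))⁻¹) 1 0 = - (γ : SL(2, ℤ)) 1 0 := by
        rw [Matrix.SpecialLinearGroup.SL2_inv_expl]; rfl
      rw [this]; exact (dvd_neg).2 h10
    · have : ((γ : SL(2, ℤ))⁻¹) 0 1 = - (γ : SL(2, ℤ)) 0 1 := by
        rw [Matrix.SpecialLinearGroup.SL2_inv_expl]; rfl
      rw [this]; exact (dvd_neg).2 h01
    · have : ((γ : SL(2, ℤ))⁻¹) 1 1 = (γ : SL(2, ℤ)) 0 0 := by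
        rw [Matrix.SpecialLinearGroup.SL2_inv_expl]; rfl
      rw [this]; exact hc.h00

theorem comm_inP (M : ℕ) (g : SL(2, ℤ)) (hg : g ∈ Gamma1 3) :
    InP M ((H914.L3.zel (2 ^ M))⁻¹ * g⁻¹ * H914.L3.zel (2 ^ M) * g) := by
  have hz : H914.L3.zel (2 ^ M) ∈ Gamma1 3 :=
    H914.L3.zel_mem _ (H914.L3.not_three_dvd_two_pow M)
  have h1 : ((H914.L3.zel (2 ^ M))⁻¹ * g⁻¹ * H914.L3.zel (2 ^ M) * g) ∈ Gamma1 3 :=
    (Gamma1 3).mul_mem ((Gamma1 3).mul_mem ((Gamma1 3).mul_mem ((Gamma1 3).inv_mem hz)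
      ((Gamma1 3).inv_mem hg)) hz) hg
  obtain ⟨h10, _, h11⟩ := inP_zero.2 h1
  obtain ⟨_, c01, c10, c11⟩ := H914.L3.zel_comm (2 ^ M) g
  have hc : IsCoprime (3 : ℤ) (2 ^ M) := IsCoprime.pow_right (by norm_num)
  have e3 : ((3 * 2 ^ 0 : ℕ) : ℤ) = 3 := by norm_num
  have eM : ((3 * 2 ^ M : ℕ) : ℤ) = 3 * 2 ^ M := by push_cast; rfl
  have e2 : ((2 ^ M : ℕ) : ℤ) = 2 ^ M := by push_cast; rfl
  rw [e3] at h10 h11
  refine ⟨?_, ?_, ?_⟩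
  · rw [eM]; exact hc.mul_dvd h10 c10
  · rw [e2]; exact c01
  · rw [eM]; exact hc.mul_dvd h11 c11

theorem act_zel {M n : ℕ} (hn : n ≤ M) (hw : Odd w) (p : Fin (w + 1) → ℤ) :
    ∃ q : Fin (w + 1) → ℤ,
      act w ((H914.L3.zel (2 ^ M) : SL(2, ℤ)) : M2) p + p = (2 ^ n) • q := by
  have hd : ((2 ^ n : ℕ) : ℤ) ∣ (2 : ℤ) ^ M := by
    push_cast; exact pow_dvd_pow 2 hn
  have z := H914.L3.zel_eq (2 ^ M)
  have h00 : ((H914.L3.zel (2 ^ M) : SL(2, ℤ)) : M2) 0 0 - (-1)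
      = (2 : ℤ) ^ M * (H914.L3.yel (2 ^ M)) 0 0 := by
    rw [z, Matrix.add_apply, Matrix.smul_apply, smul_eq_mul]; simp
  have h11 : ((H914.L3.zel (2 ^ M) : SL(2, ℤ)) : M2) 1 1 - (-1)
      = (2 : ℤ) ^ M * (H914.L3.yel (2 ^ M)) 1 1 := by
    rw [z, Matrix.add_apply, Matrix.smul_apply, smul_eq_mul]; simp
  have h01 : ((H914.L3.zel (2 ^ M) : SL(2, ℤ)) : M2) 0 1
      = (2 : ℤ) ^ M * (H914.L3.yel (2 ^ M)) 0 1 := by
    rw [z, Matrix.add_apply, Matrix.smul_apply, smul_eq_mul]; simp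
  have h10 : ((H914.L3.zel (2 ^ M) : SL(2, ℤ)) : M2) 1 0
      = (2 : ℤ) ^ M * (H914.L3.yel (2 ^ M)) 1 0 := by
    rw [z, Matrix.add_apply, Matrix.smul_apply, smul_eq_mul]; simp
  refine exists_of_mod (2 ^ n) _ fun j => ?_
  rw [Pi.add_apply, Int.cast_add,
    act_diag w _ (2 ^ n) (-1) (-1) (h01 ▸ Dvd.dvd.mul_right hd _) (h10 ▸ Dvd.dvd.mul_right hd _)
      (h00 ▸ Dvd.dvd.mul_right hd _) (h11 ▸ Dvd.dvd.mul_right hd _), ← pow_add,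
    Nat.add_sub_cancel' (Nat.lt_succ_iff.1 j.2)]
  push_cast
  rw [hw.neg_one_pow]
  ring

/-- **divisibility on the principal part gives the divisibility condition.** -/
theorem div_of {M n : ℕ} (hn : n + 1 ≤ M) (hw : Odd w)
    (v : Z1 (actM ℤ (AA (Gamma1 3) w)))
    (h : ∀ γ : Gamma1 3, InP M γ → ∃ p : Fin (w + 1) → ℤ,
      (v : Gamma1 3 → Fin (w + 1) → ℤ) γ = (2 ^ (n + 1) : ℤ) • p) :
    Div (actM ℤ (AA (Gamma1 3) w)) n (v : Gamma1 3 → Fin (w + 1) → ℤ) := by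
  refine two_cob (PP M) ⟨H914.L3.zel (2 ^ M),
    H914.L3.zel_mem _ (H914.L3.not_three_dvd_two_pow M)⟩ (2 ^ (n + 1)) ?_ ?_ ?_ v.2 ?_
  · intro γ hγ p
    refine exists_of_mod (2 ^ (n + 1)) _ fun j => ?_
    rw [Pi.sub_apply, Int.cast_sub, actM_eq, rho_apply, act_inP hn hγ, sub_self]
  · intro p
    rw [actM_eq]
    exact act_zel hn hw p
  · intro g
    refine ⟨⟨_, (comm_inP M (g : SL(2, ℤ)) g.2).mem⟩, comm_inP M (g : SL(2, ℤ)) g.2, ?_⟩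
    apply Subtype.ext
    change H914.L3.zel (2 ^ M) * (g : SL(2, ℤ)) = (g : SL(2, ℤ)) * H914.L3.zel (2 ^ M) *
      ((H914.L3.zel (2 ^ M))⁻¹ * (g : SL(2, ℤ))⁻¹ * H914.L3.zel (2 ^ M) * (g : SL(2, ℤ)))
    group
  · intro γ hγ
    obtain ⟨p, hp⟩ := h γ hγ
    refine ⟨p, ?_⟩
    rw [hp, ← natCast_zsmul]
    push_cast
    rfl

/-- **chapter C, final form**: a word which is divisible on the principal part of some level
`2 ^ M` acts, up to a fixed integer, divisibly in the Hecke algebra. -/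
theorem ker_out {i : ℕ} (hi : i = w + 1) (hw : Odd w) {M : ℕ} (δ : PA 3 → SL(2, ℤ))
    (hδ : ∀ ℓ, IsDel 3 M (ℓ.1 : ℕ) (δ ℓ))
    (r : ∀ ℓ : PA 3, Rep (rho (Gamma1 3)) (alp M ℓ.1 (δ ℓ))) :
    ∃ e : ℤ, e ≠ 0 ∧ ∀ (n K : ℕ) (Q : FreeAlgebra ℤ (Gen 3)), n + 1 ≤ K →
      (∀ u : Z1 (actM ℤ (AA (Gamma1 3) w)), ∀ γ : Gamma1 3, InP K γ →
        ∃ p : Fin (w + 1) → ℤ,
          ((rhoR r (cc w) ℤ w Q u : Z1 (actM ℤ (AA (Gamma1 3) w))) :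
            Gamma1 3 → Fin (w + 1) → ℤ) γ = (2 ^ (n + 1) : ℤ) • p) →
      ∃ R : FreeAlgebra ℤ (Gen 3), e • sg i Q = (2 ^ n : ℤ) • sg i R := by
  obtain ⟨e, he, h⟩ := out hi hw δ hδ r
  exact ⟨e, he, fun n K Q hK hQ => h n Q fun u => div_of hK hw _ (hQ u)⟩

/-- a system of representatives of level one. -/
noncomputable def d0 (ℓ : PA 3) : SL(2, ℤ) :=
  (H724.L3.exists_del 0 (b := (ℓ.1 : ℤ)) (by
    have h := ℓ.2
    have h2 : ¬ ℓ.1 ∣ 6 := fun hd => h.2 hd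
    have h3 : Nat.Coprime ℓ.1 6 := (Nat.Prime.coprime_iff_not_dvd h.1).2 h2
    exact_mod_cast Nat.isCoprime_iff_coprime.2 h3)).choose

theorem d0_spec (ℓ : PA 3) : IsDel 3 0 (ℓ.1 : ℕ) (d0 ℓ) :=
  Exists.choose_spec _

/-- **chapter C in the letters of the limit**: words which vanish on the submodules of
`V 3 K (n + 1)` are divisible by `2 ^ n`, up to a fixed integer, in the Hecke algebra. -/
theorem ker_word {i : ℕ} (hi : i = w + 1) (hw : Odd w) :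
    ∃ e : ℤ, e ≠ 0 ∧ ∀ (n K : ℕ), n + 1 ≤ K → ∀ (T : ℕ → AddMonoid.End (V 3 K (n + 1))),
      (∀ ℓ, Good 3 ℓ → ∀ φ : V 3 K (n + 1), IsT 3 K (n + 1) ℓ φ (T ℓ φ)) →
      ∀ (β : ∀ e : Fin (w + 1), FreeAlgebra ℤ (Gen 3) →+*
        AddMonoid.End (H724.L3.Wf K (n + 1) w e)),
      (∀ (e : Fin (w + 1)) (ℓ : PA 3) φ,
        ((β e (FreeAlgebra.ι ℤ (Sum.inl ℓ)) φ : H724.L3.Wf K (n + 1) w e) : V 3 K (n + 1))
          = ((ℓ.1 : ℤ) ^ (e : ℕ)) • T ℓ.1 (φ : V 3 K (n + 1))) →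
      (∀ (e : Fin (w + 1)) (ℓ : PA 3) φ, β e (FreeAlgebra.ι ℤ (Sum.inr ℓ)) φ =
        (H724.L3.eps ℓ.1 * (ℓ.1 : ℤ) ^ (w + 1)) • φ) →
      ∀ Q : FreeAlgebra ℤ (Gen 3), (∀ e, β e Q = 0) →
        ∃ y : H239.L3.TR i, (e : H239.L3.TR i) * H239.L3.wT i Q = 2 ^ n * y := by
  obtain ⟨e, he, h⟩ := ker_out hi hw d0 d0_spec
    (fun ℓ : PA 3 => rep3 (M := 0) (ℓ := ℓ.1) ℓ.2 (d0_spec ℓ))
  refine ⟨e, he, fun n K hK T hT β hl hr Q hQ => ?_⟩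
  obtain ⟨R, hR⟩ := h n K Q hK fun u γ hγ =>
    word_dvd hw hK d0 d0_spec T hT β hl hr Q hQ u γ hγ
  refine ⟨H239.L3.wT i R, Subtype.ext ?_⟩
  have e1 : ((H239.L3.wT i Q : H239.L3.TR i) : Module.End ℂ (MF 3 (i + 1))) = sg i Q := rfl
  have e2 : ((H239.L3.wT i R : H239.L3.TR i) : Module.End ℂ (MF 3 (i + 1))) = sg i R := rfl
  have e3 : (e : H239.L3.TR i) * H239.L3.wT i Q = e • H239.L3.wT i Q := (zsmul_eq_mul _ _).symm
  have e4 : (2 : H239.L3.TR i) ^ n * H239.L3.wT i R = (2 ^ n : ℤ) • H239.L3.wT i R := by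
    rw [zsmul_eq_mul]; push_cast; rfl
  rw [e3, e4, Subalgebra.coe_smul, Subalgebra.coe_smul, e1, e2]
  exact hR

end Vale.Agent.P022.H161.CDiv
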