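import Mathlib

/-!
P022, level three, chapter C, row [C-LAT]: the lattice half. Cocycles of a finitely generated
group with values in a lattice; operators whose values are twice a coboundary modulo a power of
two are divisible, up to a fixed integer, inside the image of the operator ring.
-/

namespace Vale.Agent.P022.H161.CLat

open Matrix

variable {Γ : Type*} [Group Γ] {P : Type*} [AddCommGroup P]

/-- cocycles for a right action. -/
def Z1 (act : Γ → P →+ P) : AddSubgroup (Γ → P) where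
  carrier := {u | ∀ g h, u (g * h) = act h (u g) + u h}
  zero_mem' := by intro g h; simp
  add_mem' := by
    intro u v hu hv g h
    simp only [Pi.add_apply, hu g h, hv g h, map_add]; abel
  neg_mem' := by
    intro u hu g h
    simp only [Pi.neg_apply, hu g h, map_neg]; abel

/-- coboundaries. -/
def B1 (act : Γ → P →+ P) : AddSubgroup (Γ → P) where
  carrier := {u | ∃ p, ∀ g, u g = act g p - p}
  zero_mem' := ⟨0, by intro g; simp⟩
  add_mem' := by
    rintro u v ⟨p, hp⟩ ⟨q, hq⟩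
    exact ⟨p + q, fun g => by simp only [Pi.add_apply, hp g, hq g, map_add]; abel⟩
  neg_mem' := by
    rintro u ⟨p, hp⟩
    exact ⟨-p, fun g => by simp only [Pi.neg_apply, hp g, map_neg]; abel⟩

lemma mem_Z1 {act : Γ → P →+ P} {u : Γ → P} :
    u ∈ Z1 act ↔ ∀ g h, u (g * h) = act h (u g) + u h := Iff.rfl

lemma mem_B1 {act : Γ → P →+ P} {u : Γ → P} :
    u ∈ B1 act ↔ ∃ p, ∀ g, u g = act g p - p := Iff.rfl

lemma B1_le {act : Γ → P →+ P} (hm : ∀ g h p, act (g * h) p = act h (act g p)) :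
    B1 act ≤ Z1 act := by
  rintro u ⟨p, hp⟩ g h
  rw [hp, hp, hp, hm, map_sub]; abel

/-- **(1)** the sign trick: an element acting by `-1` which is central modulo `Γ'`. -/
theorem two_cob {act : Γ → P →+ P} (Γ' : Subgroup Γ) (z : Γ) (m : ℕ)
    (h1 : ∀ γ ∈ Γ', ∀ p, ∃ q, act γ p - p = m • q)
    (h2 : ∀ p, ∃ q, act z p + p = m • q)
    (h3 : ∀ g, ∃ γ ∈ Γ', z * g = g * z * γ)
    {v : Γ → P} (hv : v ∈ Z1 act) (h4 : ∀ γ ∈ Γ', ∃ q, v γ = m • q) :
    ∃ (p : P) (w : Γ → P), ∀ g, 2 • v g = p - act g p + m • w g := by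
  have key : ∀ g, ∃ w, 2 • v g = v z - act g (v z) + m • w := by
    intro g
    obtain ⟨γ, hγ, he⟩ := h3 g
    obtain ⟨q1, hq1⟩ := h1 γ hγ (v (g * z))
    obtain ⟨q2, hq2⟩ := h4 γ hγ
    obtain ⟨q3, hq3⟩ := h2 (v g)
    refine ⟨q1 + q2 + q3, ?_⟩
    have e1 : v (z * g) = act g (v z) + v g := hv z g
    have e2 : v (g * z * γ) = act γ (v (g * z)) + v γ := hv _ _
    have e3 : v (g * z) = act z (v g) + v z := hv g z
    rw [he, e2] at e1
    have e4 : act γ (v (g * z)) = v (g * z) + m • q1 := by rw [← hq1]; abel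
    have e5 : act z (v g) = m • q3 - v g := by rw [← hq3]; abel
    rw [e4, hq2, e3, e5] at e1
    have e6 : v g = m • q3 - v g + v z + m • q1 + m • q2 - act g (v z) := by
      rw [e1]; abel
    calc 2 • v g = v g + v g := two_nsmul _
      _ = v g + (m • q3 - v g + v z + m • q1 + m • q2 - act g (v z)) := by rw [← e6]
      _ = v z - act g (v z) + m • (q1 + q2 + q3) := by rw [smul_add, smul_add]; abel
  choose w hw using key
  exact ⟨v z, w, hw⟩

/-- the divisibility condition of an operator value. -/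
def Div (act : Γ → P →+ P) (n : ℕ) (v : Γ → P) : Prop :=
  ∃ (p : P) (w : Γ → P), ∀ g, 2 • v g = p - act g p + (2 ^ (n + 1)) • w g

/-- in a torsion free module the quotient is a cocycle. -/
lemma Div.exists_cocycle {act : Γ → P →+ P} (hm : ∀ g h p, act (g * h) p = act h (act g p))
    (htf : ∀ (k : ℕ) (p : P), k ≠ 0 → k • p = 0 → p = 0) {n : ℕ} {v : Γ → P}
    (hv : v ∈ Z1 act) (h : Div act n v) :
    ∃ w ∈ Z1 act, 2 • (v - 2 ^ n • w) ∈ B1 act := by
  obtain ⟨p, w, hw⟩ := h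
  have hcob : (fun g => act g p - p) ∈ Z1 act := B1_le hm ⟨p, fun g => rfl⟩
  have hsum : (2 • v + (fun g => act g p - p)) ∈ Z1 act :=
    (Z1 act).add_mem ((Z1 act).nsmul_mem hv 2) hcob
  have he : 2 • v + (fun g => act g p - p) = (2 ^ (n + 1)) • w := by
    funext g
    simp only [Pi.add_apply, Pi.smul_apply]
    rw [hw g]; abel
  rw [he] at hsum
  have hwZ : w ∈ Z1 act := by
    intro g h
    have h1 := hsum g h
    simp only [Pi.smul_apply, map_nsmul] at h1
    have h2 : (2 ^ (n + 1)) • (w (g * h) - (act h (w g) + w h)) = 0 := by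
      rw [smul_sub, smul_add, h1]; abel
    exact sub_eq_zero.1 (htf _ _ (by positivity) h2)
  refine ⟨w, hwZ, -p, fun g => ?_⟩
  have h3 := congrFun he g
  simp only [Pi.add_apply, Pi.smul_apply] at h3
  simp only [Pi.smul_apply, Pi.sub_apply, map_neg, smul_sub]
  have h4 : 2 • 2 ^ n • w g = (2 ^ (n + 1)) • w g := by
    rw [smul_smul, ← pow_succ']
  rw [h4, ← h3]; abel

/-! ### saturation -/

/-- in a finitely generated abelian group, a subgroup has bounded index in its saturation. -/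
lemma exists_sat {M : Type*} [AddCommGroup M] [Module.Finite ℤ M] (N : AddSubgroup M) :
    ∃ e : ℤ, e ≠ 0 ∧ ∀ (x : M) (k : ℤ), k ≠ 0 → k • x ∈ N → e • x ∈ N := by
  classical
  let N' : Submodule ℤ M := AddSubgroup.toIntSubmodule N
  let Tor := Submodule.torsion ℤ (M ⧸ N')
  have : IsNoetherian ℤ M := isNoetherian_of_isNoetherianRing_of_finite ℤ M
  have : Module.Finite ℤ Tor := inferInstance
  have hfin : Finite Tor := Module.finite_of_fg_torsion Tor (Submodule.torsion_isTorsion)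
  refine ⟨Nat.card Tor, by exact_mod_cast Nat.card_pos.ne', fun x k hk hx => ?_⟩
  have hmem : N'.mkQ x ∈ Tor := by
    rw [Submodule.mem_torsion_iff]
    refine ⟨⟨k, mem_nonZeroDivisors_of_ne_zero hk⟩, ?_⟩
    change k • N'.mkQ x = 0
    rw [← map_smul]
    exact (Submodule.Quotient.mk_eq_zero _).2 hx
  have h1 : (Nat.card Tor : ℤ) • (⟨N'.mkQ x, hmem⟩ : Tor) = 0 := by
    rw [natCast_zsmul]
    exact card_nsmul_eq_zero'
  have h2 := congrArg Subtype.val h1
  have h3 : (Nat.card Tor : ℤ) • N'.mkQ x = 0 := h2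
  rw [← map_smul] at h3
  exact (Submodule.Quotient.mk_eq_zero _).1 h3

/-! ### lattices -/

section Lattice

variable {ι : Type*} [Fintype ι]

/-- the action by an integral matrix family on vectors over a ring. -/
def actM (R : Type*) [CommRing R] (A : Γ → Matrix ι ι ℤ) (g : Γ) : (ι → R) →+ (ι → R) where
  toFun p := fun i => ∑ j, ((A g i j : ℤ) : R) * p j
  map_zero' := by funext i; simp
  map_add' := by
    intro p q; funext i
    simp [mul_add, Finset.sum_add_distrib]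

lemma actM_apply (R : Type*) [CommRing R] (A : Γ → Matrix ι ι ℤ) (g : Γ) (p : ι → R) (i : ι) :
    actM R A g p i = ∑ j, ((A g i j : ℤ) : R) * p j := rfl

lemma actM_mul [DecidableEq ι] (R : Type*) [CommRing R] {A : Γ → Matrix ι ι ℤ}
    (hA : ∀ g h, A (g * h) = A h * A g) (g h : Γ) (p : ι → R) :
    actM R A (g * h) p = actM R A h (actM R A g p) := by
  funext i
  simp only [actM_apply, hA, Matrix.mul_apply, Int.cast_sum, Int.cast_mul, Finset.sum_mul,
    Finset.mul_sum]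
  rw [Finset.sum_comm]
  exact Finset.sum_congr rfl fun j _ => Finset.sum_congr rfl fun l _ => by ring

lemma actM_smul {R : Type*} [CommRing R] (A : Γ → Matrix ι ι ℤ) (g : Γ) (c : R) (p : ι → R) :
    actM R A g (c • p) = c • actM R A g p := by
  funext i
  simp only [actM_apply, Pi.smul_apply, smul_eq_mul, Finset.mul_sum]
  exact Finset.sum_congr rfl fun j _ => by ring

/-- cast of an integral function. -/
def toC {K : Type*} [Ring K] (u : Γ → ι → ℤ) : Γ → ι → K := fun g i => (u g i : K)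

omit [Fintype ι] in
lemma toC_add {K : Type*} [Ring K] (u v : Γ → ι → ℤ) :
    toC (K := K) (u + v) = toC u + toC v := by
  funext g i; simp [toC]

lemma cob_one {R : Type*} [CommRing R] {A : Γ → Matrix ι ι ℤ} {u : Γ → ι → R}
    (hu : u ∈ Z1 (actM R A)) (h1 : ∀ p, actM R A 1 p = p) : u 1 = 0 := by
  have := hu 1 1
  rw [mul_one, h1] at this
  exact left_eq_add.1 this

lemma cob_inv {R : Type*} [CommRing R] {A : Γ → Matrix ι ι ℤ} {u : Γ → ι → R}
    (hu : u ∈ Z1 (actM R A)) (h1 : ∀ p, actM R A 1 p = p) (g : Γ) :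
    u g⁻¹ = - actM R A g⁻¹ (u g) := by
  have := hu g g⁻¹
  rw [mul_inv_cancel, cob_one hu h1] at this
  exact eq_neg_of_add_eq_zero_right this.symm

/-- values of a cocycle lie in the additive group generated by the values on generators. -/
lemma values_mem {R : Type*} [CommRing R] {A : Γ → Matrix ι ι ℤ} {u : Γ → ι → R}
    (hu : u ∈ Z1 (actM R A)) (h1 : ∀ p, actM R A 1 p = p) (S : Set Γ)
    (hS : Subgroup.closure S = ⊤) (W : AddSubgroup R) (hW : ∀ s ∈ S, ∀ i, u s i ∈ W) (g : Γ)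
    (i : ι) : u g i ∈ W := by
  have key : ∀ g ∈ Subgroup.closure S, ∀ i, u g i ∈ W := by
    intro g hg
    induction hg using Subgroup.closure_induction with
    | mem x hx => exact hW x hx
    | one => intro i; rw [cob_one hu h1]; exact W.zero_mem
    | mul x y _ _ hx hy =>
      intro i
      rw [hu x y]
      refine W.add_mem ?_ (hy i)
      rw [actM_apply]
      refine sum_mem fun j _ => ?_
      rw [← zsmul_eq_mul]
      exact W.zsmul_mem (hx j) _
    | inv x _ hx =>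
      intro i
      rw [cob_inv hu h1]
      refine W.neg_mem ?_
      rw [actM_apply]
      refine sum_mem fun j _ => ?_
      rw [← zsmul_eq_mul]
      exact W.zsmul_mem (hx j) _
  exact key g (by rw [hS]; trivial) i

/-- **(3)** every cocycle over a field of characteristic zero is a combination of integral
cocycles. -/
theorem span_int {K : Type*} [Field K] [CharZero K] [Group.FG Γ] {A : Γ → Matrix ι ι ℤ}
    (h1 : ∀ p, actM K A 1 p = p) {u : Γ → ι → K} (hu : u ∈ Z1 (actM K A)) :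
    ∃ (d : ℕ) (c : Fin d → K) (z : Fin d → Γ → ι → ℤ), (∀ b, z b ∈ Z1 (actM ℤ A)) ∧
      u = ∑ b, c b • toC (z b) := by
  classical
  obtain ⟨S, hS⟩ := (Group.fg_def.1 (inferInstance : Group.FG Γ))
  let X : Set K := Set.range fun x : S × ι => u x.1 x.2
  have hX : X.Finite := Set.finite_range _
  let W : Submodule ℤ K := Submodule.span ℤ X
  have : Module.Finite ℤ W := Module.Finite.span_of_finite ℤ hX
  have : Module.IsTorsionFree ℤ W := inferInstance
  have : Module.Free ℤ W := inferInstance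
  let b := Module.Free.chooseBasis ℤ W
  have : Fintype (Module.Free.ChooseBasisIndex ℤ W) := inferInstance
  have hval : ∀ g i, u g i ∈ W := fun g i =>
    values_mem hu h1 (S : Set Γ) hS W.toAddSubgroup
      (fun s hs i => Submodule.subset_span ⟨(⟨s, hs⟩, i), rfl⟩) g i
  let z : Module.Free.ChooseBasisIndex ℤ W → Γ → ι → ℤ := fun x g i =>
    b.repr ⟨u g i, hval g i⟩ x
  have hz : ∀ x, z x ∈ Z1 (actM ℤ A) := by
    intro x g h
    funext i
    have e1 : (⟨u (g * h) i, hval (g * h) i⟩ : W)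
        = (∑ j, (A h i j) • (⟨u g j, hval g j⟩ : W)) + ⟨u h i, hval h i⟩ := by
      apply Subtype.ext
      have h3 := congrFun (hu g h) i
      rw [Pi.add_apply, actM_apply] at h3
      rw [Submodule.coe_add, Submodule.coe_sum]
      simp only [Submodule.coe_smul, zsmul_eq_mul]
      exact h3
    have e2 := congrArg (fun y : W => b.repr y x) e1
    simp only [map_add, map_sum, map_smul, Finsupp.add_apply, Finsupp.finsetSum_apply,
      Finsupp.smul_apply, smul_eq_mul] at e2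
    rw [Pi.add_apply, actM_apply]
    exact e2
  let e := Fintype.equivFin (Module.Free.ChooseBasisIndex ℤ W)
  refine ⟨_, fun t => ((b (e.symm t) : W) : K), fun t => z (e.symm t), fun t => hz _, ?_⟩
  funext g i
  have h2 : (u g i : K) = ∑ x, (z x g i : K) * ((b x : W) : K) := by
    have h3 := b.sum_repr ⟨u g i, hval g i⟩
    have h4 := congrArg W.subtype h3
    rw [map_sum] at h4
    simp only [map_smul, Submodule.subtype_apply, zsmul_eq_mul] at h4
    exact h4.symm
  rw [h2, Finset.sum_apply, Finset.sum_apply]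
  rw [← Equiv.sum_comp e.symm (fun x => (z x g i : K) * ((b x : W) : K))]
  refine Finset.sum_congr rfl fun t _ => ?_
  rw [Pi.smul_apply, Pi.smul_apply, smul_eq_mul, mul_comm]
  rfl

/-- an integral cocycle which vanishes on generators is zero. -/
lemma finite_Z1 [Group.FG Γ] {A : Γ → Matrix ι ι ℤ} (h1 : ∀ p, actM ℤ A 1 p = p) :
    Module.Finite ℤ (Z1 (actM ℤ A)) := by
  obtain ⟨S, hS⟩ := (Group.fg_def.1 (inferInstance : Group.FG Γ))
  let f : Z1 (actM ℤ A) →+ (S → ι → ℤ) :=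
    { toFun := fun u s => (u : Γ → ι → ℤ) s
      map_zero' := by funext s; rfl
      map_add' := by intro u v; funext s; rfl }
  refine Module.Finite.of_injective f.toIntLinearMap ?_
  intro u v huv
  rw [← sub_eq_zero]
  apply Subtype.ext
  funext g i
  have h2 : (f (u - v)) = 0 := by
    rw [map_sub, sub_eq_zero]; exact huv
  have h3 := values_mem (u := ((u - v : Z1 (actM ℤ A)) : Γ → ι → ℤ)) (u - v).2 h1 (S : Set Γ) hS
    (⊥ : AddSubgroup ℤ) (fun s hs i => by
      have := congrFun (congrFun h2 ⟨s, hs⟩) i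
      exact this) g i
  exact h3

/-- the saturation of the coboundaries. -/
def Bsat (A : Γ → Matrix ι ι ℤ) : Submodule ℤ (Z1 (actM ℤ A)) where
  carrier := {u | ∃ k : ℤ, k ≠ 0 ∧ k • (u : Γ → ι → ℤ) ∈ B1 (actM ℤ A)}
  zero_mem' := ⟨1, one_ne_zero, by simp [(B1 (actM ℤ A)).zero_mem]⟩
  add_mem' := by
    rintro u v ⟨k, hk, hu⟩ ⟨l, hl, hv⟩
    refine ⟨k * l, mul_ne_zero hk hl, ?_⟩
    have h1 := (B1 (actM ℤ A)).zsmul_mem hu l
    have h2 := (B1 (actM ℤ A)).zsmul_mem hv k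
    have h3 := (B1 (actM ℤ A)).add_mem h1 h2
    rw [smul_smul, smul_smul] at h3
    have e : ((k * l) • ((u + v : Z1 (actM ℤ A)) : Γ → ι → ℤ))
        = (l * k) • (u : Γ → ι → ℤ) + (k * l) • (v : Γ → ι → ℤ) := by
      rw [AddSubgroup.coe_add, smul_add, mul_comm l k]
    rw [e]; exact h3
  smul_mem' := by
    rintro c u ⟨k, hk, hu⟩
    refine ⟨k, hk, ?_⟩
    have h1 := (B1 (actM ℤ A)).zsmul_mem hu c
    rw [smul_smul, mul_comm, ← smul_smul] at h1
    exact h1

/-- **(2)** -/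
theorem clat [Group.FG Γ] [DecidableEq ι] {A : Γ → Matrix ι ι ℤ} (h1 : A 1 = 1)
    (hA : ∀ g h, A (g * h) = A h * A g) {H : Type*} [Ring H]
    (ρ : H →+* AddMonoid.End (Z1 (actM ℤ A))) :
    ∃ e : ℤ, e ≠ 0 ∧ ∀ (n : ℕ) (Q : H),
      (∀ u, Div (actM ℤ A) n ((ρ Q u : Z1 (actM ℤ A)) : Γ → ι → ℤ)) →
      ∃ R : H, ∀ u, e • ρ Q u - (2 ^ n : ℤ) • ρ R u ∈ Bsat A := by
  have h1' : ∀ p, actM ℤ A 1 p = p := by
    intro p; funext i; simp [actM_apply, h1, Matrix.one_apply]
  have hm := fun g h p => actM_mul ℤ hA g h p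
  have : Module.Finite ℤ (Z1 (actM ℤ A)) := finite_Z1 h1'
  let Λ := Z1 (actM ℤ A) ⧸ Bsat A
  let π : Z1 (actM ℤ A) →ₗ[ℤ] Λ := (Bsat A).mkQ
  have hπ : ∀ u, π u = 0 ↔ u ∈ Bsat A := fun u => Submodule.Quotient.mk_eq_zero _
  have htf : ∀ (k : ℤ) (x : Λ), k ≠ 0 → k • x = 0 → x = 0 := by
    intro k x hk hx
    obtain ⟨u, rfl⟩ := Submodule.mkQ_surjective _ x
    have h2 : π (k • u) = 0 := by rw [map_smul]; exact hx
    rw [hπ] at h2
    obtain ⟨l, hl, h3⟩ := h2
    refine (hπ u).2 ⟨l * k, mul_ne_zero hl hk, ?_⟩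
    rw [← smul_smul]
    exact h3
  let M := Z1 (actM ℤ A) →ₗ[ℤ] Λ
  have : Module.Free ℤ (Z1 (actM ℤ A)) := inferInstance
  have : Module.Finite ℤ M := inferInstance
  let F : H →+ M :=
    { toFun := fun Q => π.comp (ρ Q).toIntLinearMap
      map_zero' := by
        apply LinearMap.ext; intro u
        change π (ρ 0 u) = 0
        rw [map_zero]; exact map_zero π
      map_add' := by
        intro Q R
        apply LinearMap.ext; intro u
        change π (ρ (Q + R) u) = π (ρ Q u) + π (ρ R u)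
        rw [map_add]; exact map_add π _ _ }
  have hF : ∀ Q u, F Q u = π (ρ Q u) := fun Q u => rfl
  obtain ⟨e, he, hsat⟩ := exists_sat (M := M) F.range
  refine ⟨e, he, fun n Q hQ => ?_⟩
  have hex : ∀ u, ∃ x : Λ, (2 ^ n : ℤ) • x = F Q u := by
    intro u
    obtain ⟨w, hw, hb⟩ := (hQ u).exists_cocycle hm
      (fun k p hk hp => by
        funext i
        have := congrFun hp i
        simp only [Pi.smul_apply, nsmul_eq_mul, Pi.zero_apply, mul_eq_zero, Nat.cast_eq_zero] at this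
        exact this.resolve_left hk) (ρ Q u).2
    refine ⟨π ⟨w, hw⟩, ?_⟩
    rw [hF, ← map_smul, eq_comm, ← sub_eq_zero, ← map_sub, hπ]
    refine ⟨2, two_ne_zero, ?_⟩
    have e1 : (2 : ℤ) • ((ρ Q u - (2 ^ n : ℤ) • (⟨w, hw⟩ : Z1 (actM ℤ A)) : Z1 (actM ℤ A)) :
        Γ → ι → ℤ) = 2 • (((ρ Q u : Z1 (actM ℤ A)) : Γ → ι → ℤ) - 2 ^ n • w) := by
      funext g i
      simp
    rw [e1]; exact hb
  choose E hE using hex
  have hpow : ((2 : ℤ) ^ n) ≠ 0 := pow_ne_zero _ two_ne_zero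
  let E' : M := (AddMonoidHom.mk' E (by
    intro u v
    have h2 : (2 ^ n : ℤ) • (E (u + v) - (E u + E v)) = 0 := by
      rw [smul_sub, smul_add, hE, hE, hE, map_add, sub_self]
    exact sub_eq_zero.1 (htf _ _ hpow h2))).toIntLinearMap
  have hE' : (2 ^ n : ℤ) • E' = F Q := by
    ext u; exact hE u
  obtain ⟨R, hR⟩ := hsat E' (2 ^ n) hpow (hE' ▸ ⟨Q, rfl⟩)
  refine ⟨R, fun u => ?_⟩
  rw [← hπ, map_sub, map_smul, map_smul, ← hF, ← hF, hR, ← hE']
  change e • ((2 ^ n : ℤ) • E' u) - (2 ^ n : ℤ) • (e • E' u) = 0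
  rw [smul_comm, sub_self]

/-- coboundaries over a ring form a submodule. -/
lemma B1_smul {R : Type*} [CommRing R] {A : Γ → Matrix ι ι ℤ} {u : Γ → ι → R}
    (hu : u ∈ B1 (actM R A)) (c : R) : c • u ∈ B1 (actM R A) := by
  obtain ⟨p, hp⟩ := hu
  exact ⟨c • p, fun g => by rw [actM_smul, Pi.smul_apply, hp, smul_sub]⟩

lemma toC_B1 {K : Type*} [Field K] [CharZero K] {A : Γ → Matrix ι ι ℤ} {u : Z1 (actM ℤ A)}
    (hu : u ∈ Bsat A) : toC (K := K) (u : Γ → ι → ℤ) ∈ B1 (actM K A) := by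
  obtain ⟨k, hk, p, hp⟩ := hu
  have hk' : (k : K) ≠ 0 := by exact_mod_cast hk
  have h1 : (k : K) • toC (K := K) (u : Γ → ι → ℤ) ∈ B1 (actM K A) := by
    refine ⟨fun i => (p i : K), fun g => ?_⟩
    funext i
    have h2 := congrFun (hp g) i
    simp only [Pi.smul_apply, Pi.sub_apply, actM_apply, zsmul_eq_mul] at h2
    have h3 := congrArg (Int.cast : ℤ → K) h2
    push_cast at h3
    simp only [Pi.smul_apply, smul_eq_mul, toC, Pi.sub_apply, actM_apply]
    exact_mod_cast h3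
  have h4 := B1_smul h1 ((k : K)⁻¹)
  rwa [smul_smul, inv_mul_cancel₀ hk', one_smul] at h4

/-- **(4)** the output of the lattice half. -/
theorem c_out {K : Type*} [Field K] [CharZero K] [Group.FG Γ] [DecidableEq ι]
    {A : Γ → Matrix ι ι ℤ} (h1 : A 1 = 1) (hA : ∀ g h, A (g * h) = A h * A g)
    {H : Type*} [Ring H] (ρ : H →+* AddMonoid.End (Z1 (actM ℤ A)))
    (τ : H → (Γ → ι → K) →ₗ[K] (Γ → ι → K))
    (hτ : ∀ Q (u : Z1 (actM ℤ A)), τ Q (toC (u : Γ → ι → ℤ))
      = toC ((ρ Q u : Z1 (actM ℤ A)) : Γ → ι → ℤ))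
    {S : Type*} [AddCommGroup S] [Module K S] (σ : H → S → S)
    (Φ : S →ₗ[K] (Γ → ι → K)) (hΦ : ∀ f, Φ f ∈ Z1 (actM K A))
    (heq : ∀ Q f, Φ (σ Q f) - τ Q (Φ f) ∈ B1 (actM K A))
    (hinj : ∀ f, Φ f ∈ B1 (actM K A) → f = 0) :
    ∃ e : ℤ, e ≠ 0 ∧ ∀ (n : ℕ) (Q : H),
      (∀ u, Div (actM ℤ A) n ((ρ Q u : Z1 (actM ℤ A)) : Γ → ι → ℤ)) →
      ∃ R : H, ∀ f, (e : K) • σ Q f = (2 ^ n : K) • σ R f := by
  obtain ⟨e, he, hcl⟩ := clat h1 hA ρ
  have h1' : ∀ p, actM K A 1 p = p := by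
    intro p; funext i; simp [actM_apply, h1, Matrix.one_apply]
  refine ⟨e, he, fun n Q hQ => ?_⟩
  obtain ⟨R, hR⟩ := hcl n Q hQ
  refine ⟨R, fun f => ?_⟩
  have hD : ∀ u ∈ Z1 (actM K A), (e : K) • τ Q u - (2 ^ n : K) • τ R u ∈ B1 (actM K A) := by
    intro u hu
    obtain ⟨d, c, z, hz, rfl⟩ := span_int h1' hu
    have e1 : (e : K) • τ Q (∑ b, c b • toC (z b)) - (2 ^ n : K) • τ R (∑ b, c b • toC (z b))
        = ∑ b, c b • toC (K := K) ((e • ρ Q ⟨z b, hz b⟩ - (2 ^ n : ℤ) • ρ R ⟨z b, hz b⟩ :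
          Z1 (actM ℤ A)) : Γ → ι → ℤ) := by
      rw [map_sum, map_sum, Finset.smul_sum, Finset.smul_sum, ← Finset.sum_sub_distrib]
      refine Finset.sum_congr rfl fun b _ => ?_
      rw [map_smul, map_smul]
      have e2 := hτ Q ⟨z b, hz b⟩
      have e3 := hτ R ⟨z b, hz b⟩
      simp only at e2 e3
      rw [e2, e3]
      funext g i
      have e4 : (((e • ρ Q ⟨z b, hz b⟩ - (2 ^ n : ℤ) • ρ R ⟨z b, hz b⟩ : Z1 (actM ℤ A)) :
          Γ → ι → ℤ)) g i = e * (((ρ Q ⟨z b, hz b⟩ : Z1 (actM ℤ A)) : Γ → ι → ℤ) g i)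
          - 2 ^ n * (((ρ R ⟨z b, hz b⟩ : Z1 (actM ℤ A)) : Γ → ι → ℤ) g i) := by
        simp only [AddSubgroup.coe_sub, AddSubgroup.coe_zsmul, Pi.sub_apply, Pi.smul_apply,
          smul_eq_mul]
      simp only [Pi.sub_apply, Pi.smul_apply, smul_eq_mul, toC]
      rw [e4]
      push_cast
      ring
    rw [e1]
    refine sum_mem fun b _ => B1_smul (toC_B1 (hR _)) _
  have h2 : Φ ((e : K) • σ Q f - (2 ^ n : K) • σ R f) ∈ B1 (actM K A) := by
    rw [map_sub, map_smul, map_smul]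
    have e1 : (e : K) • Φ (σ Q f) - (2 ^ n : K) • Φ (σ R f)
        = (e : K) • (Φ (σ Q f) - τ Q (Φ f)) - (2 ^ n : K) • (Φ (σ R f) - τ R (Φ f))
          + ((e : K) • τ Q (Φ f) - (2 ^ n : K) • τ R (Φ f)) := by
      rw [smul_sub, smul_sub]; abel
    rw [e1]
    exact (B1 (actM K A)).add_mem ((B1 (actM K A)).sub_mem (B1_smul (heq Q f) _)
      (B1_smul (heq R f) _)) (hD _ (hΦ f))
  exact sub_eq_zero.1 (hinj _ h2)

end Lattice

end Vale.Agent.P022.H161.CLat
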