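import Vale.Agent.P022.H161.COp
import Vale.Agent.P022.H227.PhiD
import Vale.Agent.P022.H914.L3.ZEl
import Vale.Agent.P022.H724.L3.FamDef

/-!
P022, level three, chapter C: the words in the operators on integral cocycles of `Gamma1 3` and
the words in the Hecke operators on forms of weight `i + 1 = w + 2`.
-/

open CongruenceSubgroup
open scoped MatrixGroups

namespace Vale.Agent.P022.H161.COut

open Vale.Agent.P022 Vale.Agent.P022.L3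
open Vale.Agent.P022.H161.CLat Vale.Agent.P022.H161.COp
open Vale.Agent.P022.H527.L3 hiding M2
open Vale.Agent.P022.H420.L3

theorem eps_jacobi (ℓ : PA 3) : H724.L3.eps (ℓ.1 : ℤ) = jacobiSym ℓ.1 3 := by
  have h3 : ¬ (3 : ℤ) ∣ (ℓ.1 : ℤ) := by
    intro h
    have h' : 3 ∣ ℓ.1 := by exact_mod_cast h
    exact Nat.Prime.one_lt Nat.prime_three |>.ne' (Nat.dvd_one.1
      (ℓ.coprime ▸ Nat.dvd_gcd h' (dvd_refl 3))) |>.elim
  have hcases : (ℓ.1 : ℤ) % 3 = 1 ∨ (ℓ.1 : ℤ) % 3 = 2 := by omega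
  have h7 := jacobiSym.mod_left (ℓ.1 : ℤ) 3
  rw [Nat.cast_ofNat] at h7
  rw [H724.L3.eps]
  rcases hcases with h | h
  · rw [if_pos h, h7, h]
    exact (jacobiSym.one_left 3).symm
  · rw [if_neg (by omega), h7, h]
    norm_num

/-- the integer by which the second generator acts. -/
def cc (w : ℕ) (ℓ : PA 3) : ℤ := H724.L3.eps (ℓ.1 : ℤ) * (ℓ.1 : ℤ) ^ (w + 1)

theorem gHk_inr {i w : ℕ} (hi : i = w + 1) (hw : Odd w) (ℓ : PA 3) (f : MF 3 (i + 1)) :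
    gHk 3 (Sum.inr ℓ) i f = cc w ℓ • f := by
  have he : Even i := by rw [hi]; exact hw.add_one
  have h1 : gHk 3 (Sum.inr ℓ) i f = ((ℓ.1 : ℂ) ^ i) • H783.dia (i + 1) ℓ f := rfl
  rw [h1, H227.dia_eps he ℓ f, ← eps_jacobi, smul_smul]
  have h2 : (ℓ.1 : ℂ) ^ i * ((H724.L3.eps (ℓ.1 : ℤ) : ℤ) : ℂ) = ((cc w ℓ : ℤ) : ℂ) := by
    rw [cc, hi]; push_cast; ring
  rw [h2]
  exact Int.cast_smul_eq_zsmul ℂ _ f

/-- words on forms. -/
noncomputable def sg (i : ℕ) : FreeAlgebra ℤ (Gen 3) →ₐ[ℤ] Module.End ℂ (MF 3 (i + 1)) :=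
  FreeAlgebra.lift ℤ (fun s => gHk 3 s i)

/-- **the output of the lattice half for the Hecke operators.** -/
theorem out {i w : ℕ} (hi : i = w + 1) (hw : Odd w) {M : ℕ} (δ : PA 3 → SL(2, ℤ))
    (hδ : ∀ ℓ, IsDel 3 M (ℓ.1 : ℕ) (δ ℓ))
    (r : ∀ ℓ : PA 3, Rep (rho (Gamma1 3)) (alp M ℓ.1 (δ ℓ))) :
    ∃ e : ℤ, e ≠ 0 ∧ ∀ (n : ℕ) (Q : FreeAlgebra ℤ (Gen 3)),
      (∀ u : Z1 (actM ℤ (AA (Gamma1 3) w)), Div (actM ℤ (AA (Gamma1 3) w)) n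
        ((rhoR r (cc w) ℤ w Q u : Z1 (actM ℤ (AA (Gamma1 3) w))) :
          Gamma1 3 → Fin (w + 1) → ℤ)) →
      ∃ R : FreeAlgebra ℤ (Gen 3), e • sg i Q = (2 ^ n : ℤ) • sg i R := by
  have : Group.FG (Gamma1 3) := H914.L3.fg_Gamma1 3
  obtain ⟨e, he, h⟩ := word_out (K := ℂ) (w := w) r (cc w) (sg i) (H227.phi hi)
    (fun f g h => H227.phi_coc hi f g h)
    (fun ℓ f => by
      have h1 : sg i (FreeAlgebra.ι ℤ (Sum.inl ℓ)) = gHk 3 (Sum.inl ℓ) i :=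
        FreeAlgebra.lift_ι_apply _ _
      rw [h1]
      exact H227.phi_T hi ℓ (hδ ℓ) (r ℓ) f)
    (fun ℓ f => by
      have h1 : sg i (FreeAlgebra.ι ℤ (Sum.inr ℓ)) = gHk 3 (Sum.inr ℓ) i :=
        FreeAlgebra.lift_ι_apply _ _
      refine ⟨0, fun g => ?_⟩
      rw [h1, gHk_inr hi hw, map_zsmul, Pi.smul_apply, map_zero, sub_self, sub_self])
    (fun f p hp => H227.phi_inj hi f p hp)
  refine ⟨e, he, fun n Q hQ => ?_⟩
  obtain ⟨R, hR⟩ := h n Q hQ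
  refine ⟨R, LinearMap.ext fun f => ?_⟩
  have h1 := hR f
  rw [LinearMap.smul_apply, LinearMap.smul_apply, ← Int.cast_smul_eq_zsmul ℂ e,
    ← Int.cast_smul_eq_zsmul ℂ (2 ^ n)]
  push_cast
  exact h1

end Vale.Agent.P022.H161.COut
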