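import Mathlib

/-!
P022, level three, chapter G, row [SAT]. A finite dimensional space of sequences spanned by
integral sequences, over a field with a valuation ring of residue characteristic `l`: every
coordinate is an `O`-combination of finitely many fixed coordinates. Hence every nonzero element
can be scaled to have all coordinates in `O` and one coordinate equal to one.
-/

namespace Vale.Agent.P022.H161

open Module Submodule

variable {k : Type*} [Field k]

/-- the integers prime to `l` are invertible in `O`. -/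
lemma inv_int_mem (O : ValuationSubring k) (l : ℕ) [hp : Fact l.Prime]
    (hl : (l : k) ∈ O.nonunits) (m : ℤ) (hm : ¬ (l : ℤ) ∣ m) : ((m : k))⁻¹ ∈ O := by
  have hm0 : O.valuation (m : k) ≤ 1 := (O.valuation_le_one_iff _).2 (intCast_mem O m)
  have hl1 : O.valuation (l : k) < 1 := (O.mem_nonunits_iff).1 hl
  have hcop : IsCoprime (l : ℤ) m := by
    rw [Int.isCoprime_iff_gcd_eq_one]
    have h1 := (Nat.Prime.coprime_iff_not_dvd hp.out (n := m.natAbs)).2
      (fun h => hm (Int.natCast_dvd.2 h))
    simpa [Int.gcd] using h1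
  obtain ⟨a, b, hab⟩ := hcop
  have hab' : (b : k) * (m : k) = 1 - (a : k) * (l : k) := by
    have : ((a * l + b * m : ℤ) : k) = 1 := by rw [hab]; simp
    push_cast at this
    linear_combination this
  have hal : O.valuation ((a : k) * (l : k)) < 1 := by
    rw [map_mul]
    have ha : O.valuation (a : k) ≤ 1 := (O.valuation_le_one_iff _).2 (intCast_mem O a)
    calc O.valuation (a : k) * O.valuation (l : k) ≤ 1 * O.valuation (l : k) := by gcongr
      _ < 1 := by simpa using hl1
  have h1 : O.valuation ((b : k) * (m : k)) = 1 := by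
    rw [hab']
    have : O.valuation (1 - (a : k) * (l : k)) = O.valuation (1 : k) :=
      Valuation.map_sub_eq_of_lt_left _ (by simpa using hal)
    simpa using this
  have hb : O.valuation (b : k) ≤ 1 := (O.valuation_le_one_iff _).2 (intCast_mem O b)
  rw [← O.valuation_le_one_iff]
  rw [map_inv₀]
  rw [map_mul] at h1
  have hmne : O.valuation (m : k) ≠ 0 := by
    intro h; rw [h, mul_zero] at h1; exact zero_ne_one h1
  have h2 : (O.valuation (m : k))⁻¹ = O.valuation (b : k) := by
    field_simp
    rw [mul_comm] at h1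
    exact h1.symm
  rw [h2]; exact hb

/-- a quotient of integers whose numerator is at least as divisible by `l`. -/
lemma div_mem (O : ValuationSubring k) [CharZero k] (l : ℕ) [hp : Fact l.Prime]
    (hl : (l : k) ∈ O.nonunits) (x y : ℤ) (hy : y ≠ 0)
    (h : x ≠ 0 → padicValInt l y ≤ padicValInt l x) : (x : k) / (y : k) ∈ O := by
  by_cases hx : x = 0
  · subst hx; simp
  obtain ⟨m, hm⟩ : (l : ℤ) ^ padicValInt l y ∣ y := padicValInt_dvd y
  have hxd : (l : ℤ) ^ padicValInt l y ∣ x :=
    (padicValInt_dvd_iff _ _).2 (Or.inr (h hx))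
  obtain ⟨n, hn⟩ := hxd
  have hlm : ¬ (l : ℤ) ∣ m := by
    rintro ⟨m', rfl⟩
    have : (l : ℤ) ^ (padicValInt l y + 1) ∣ y := by
      refine ⟨m', ?_⟩
      rw [pow_succ, mul_assoc]
      exact hm
    rw [padicValInt_dvd_iff] at this
    rcases this with h0 | h0
    · exact hy h0
    · omega
  have hl0 : (l : k) ≠ 0 := by exact_mod_cast hp.out.ne_zero
  have e : (x : k) / (y : k) = (n : k) * ((m : k))⁻¹ := by
    have hy' : (y : k) = (l : k) ^ padicValInt l y * (m : k) := by
      have := congrArg (Int.cast : ℤ → k) hm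
      push_cast at this
      exact this
    have hx' : (x : k) = (l : k) ^ padicValInt l y * (n : k) := by
      have := congrArg (Int.cast : ℤ → k) hn
      push_cast at this
      exact this
    have hm0 : (m : k) ≠ 0 := by
      intro h0
      apply hy
      have : (y : k) = 0 := by rw [hy', h0, mul_zero]
      exact_mod_cast this
    rw [hx', hy', mul_div_mul_left _ _ (pow_ne_zero _ hl0), div_eq_mul_inv]
  rw [e]
  exact mul_mem (intCast_mem O n) (inv_int_mem O l hl m hlm)

/-- **[SAT]** -/
theorem sat [CharZero k] (O : ValuationSubring k) (l : ℕ) [hp : Fact l.Prime]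
    (hl : (l : k) ∈ O.nonunits) {ι : Type*} (U : Submodule k (ι → k)) [FiniteDimensional k U]
    (hU : U ≤ span k {v | v ∈ U ∧ ∃ z : ι → ℤ, v = fun i => (z i : k)}) :
    ∃ (d : ℕ) (I : Fin d → ι), ∀ i, ∃ a : Fin d → k, (∀ j, a j ∈ O) ∧
      ∀ P ∈ U, P i = ∑ j, a j * P (I j) := by
  classical
  -- an integral basis
  let S : Set U := {u | ∃ z : ι → ℤ, (u : ι → k) = fun i => (z i : k)}
  have hS : ⊤ ≤ span k S := by
    intro u _
    have h1 : (u : ι → k) ∈ span k ((U.subtype) '' S) := by
      have h2 := hU u.2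
      refine span_mono ?_ h2
      rintro v ⟨hv, z, hz⟩
      exact ⟨⟨v, hv⟩, ⟨z, hz⟩, rfl⟩
    rw [span_image] at h1
    obtain ⟨w, hw, hwu⟩ := h1
    have : w = u := Subtype.ext hwu
    rwa [this] at hw
  -- coordinate functionals
  let ev : ι → Dual k U := fun i => (LinearMap.proj i).comp U.subtype
  have hev : ⊤ ≤ span k (Set.range ev) := by
    by_contra hcon
    have hlt : span k (Set.range ev) < ⊤ := lt_of_le_of_ne le_top (fun h => hcon h.ge)
    obtain ⟨f, hf, hle⟩ := Submodule.exists_le_ker_of_lt_top _ hlt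
    apply hf
    obtain ⟨u, rfl⟩ := (Module.evalEquiv k U).surjective f
    have hu : u = 0 := by
      apply Subtype.ext
      funext i
      have := hle (subset_span ⟨i, rfl⟩)
      simpa [ev] using this
    rw [hu, map_zero]
  let b₁ := Basis.ofSpan hS
  let b₂ := Basis.ofSpan hev
  have hb₁ : ∀ x, b₁ x ∈ S := fun x => Basis.ofSpan_subset hS ⟨x, rfl⟩
  have hb₂ : ∀ x, b₂ x ∈ Set.range ev := fun x => Basis.ofSpan_subset hev ⟨x, rfl⟩
  let d := finrank k U
  have hd₂ : finrank k (Dual k U) = d := Subspace.dual_finrank_eq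
  have : Fintype ((linearIndepOn_empty k (id : U → U)).extend (Set.empty_subset S)) :=
    FiniteDimensional.fintypeBasisIndex b₁
  have : Fintype ((linearIndepOn_empty k (id : Dual k U → Dual k U)).extend
      (Set.empty_subset (Set.range ev))) := FiniteDimensional.fintypeBasisIndex b₂
  let e₁ : _ ≃ Fin d := Fintype.equivFinOfCardEq (finrank_eq_card_basis b₁).symm
  let e₂ : _ ≃ Fin d := Fintype.equivFinOfCardEq ((finrank_eq_card_basis b₂).symm.trans hd₂)
  let c₁ := b₁.reindex e₁
  let c₂ := b₂.reindex e₂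
  have hc₁ : ∀ j, ∃ z : ι → ℤ, (c₁ j : ι → k) = fun i => (z i : k) := fun j => by
    obtain ⟨z, hz⟩ := hb₁ (e₁.symm j)
    exact ⟨z, by simpa [c₁] using hz⟩
  choose s hs using hc₁
  have hc₂ : ∀ j, ∃ i, c₂ j = ev i := fun j => by
    obtain ⟨i, hi⟩ := hb₂ (e₂.symm j)
    exact ⟨i, by simpa [c₂] using hi.symm⟩
  choose I₀ hI₀ using hc₂
  let M : (Fin d → ι) → Matrix (Fin d) (Fin d) ℤ := fun I => Matrix.of fun j t => s j (I t)
  have hM₀ : (M I₀).det ≠ 0 := by
    intro h0
    have h1 : ((M I₀).map (Int.castRingHom k)).det = 0 := by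
      have := (RingHom.map_det (Int.castRingHom k) (M I₀)).symm
      rw [h0, map_zero] at this
      exact this
    obtain ⟨v, hv, hv0⟩ := Matrix.exists_mulVec_eq_zero_iff.2 h1
    apply hv
    have h2 : ∑ t, v t • c₂ t = 0 := by
      apply c₁.ext
      intro j
      have h3 := congrFun hv0 j
      simp only [Matrix.mulVec, dotProduct, Matrix.map_apply, M, Matrix.of_apply,
        Pi.zero_apply] at h3
      rw [LinearMap.sum_apply, LinearMap.zero_apply, ← h3]
      refine Finset.sum_congr rfl fun t _ => ?_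
      rw [hI₀ t]
      simp [ev, hs j, mul_comm]
    funext t
    exact (Fintype.linearIndependent_iff.1 c₂.linearIndependent) v h2 t
  -- the minor of least valuation
  have hex : ∃ n, ∃ I : Fin d → ι, (M I).det ≠ 0 ∧ padicValInt l (M I).det = n :=
    ⟨_, I₀, hM₀, rfl⟩
  obtain ⟨I, hI, hIn⟩ := Nat.find_spec hex
  have hmin : ∀ I' : Fin d → ι, (M I').det ≠ 0 →
      padicValInt l (M I).det ≤ padicValInt l (M I').det := by
    intro I' hI'
    rw [hIn]
    exact Nat.find_min' hex ⟨I', hI', rfl⟩
  refine ⟨d, I, fun i => ?_⟩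
  let a : Fin d → k := fun t => ((M (Function.update I t i)).det : k) / ((M I).det : k)
  refine ⟨a, fun t => div_mem O l hl _ _ hI (hmin _), ?_⟩
  -- Cramer
  have hcr : ∀ j, (s j i : k) = ∑ t, a t * (s j (I t) : k) := by
    intro j
    have h1 := Matrix.mulVec_cramer (M I) (fun j => s j i)
    have h2 := congrFun h1 j
    simp only [Matrix.mulVec, dotProduct, Pi.smul_apply, smul_eq_mul, M, Matrix.of_apply] at h2
    have h3 : ∀ t, (M I).cramer (fun j => s j i) t = (M (Function.update I t i)).det := by
      intro t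
      rw [Matrix.cramer_apply]
      congr 1
      ext p q
      by_cases hq : q = t
      · subst hq; simp [M]
      · simp [M, hq]
    have hne : ((M I).det : k) ≠ 0 := by exact_mod_cast hI
    have h4 : ((M I).det : k) * (s j i : k)
        = ∑ t, ((M (Function.update I t i)).det : k) * (s j (I t) : k) := by
      have h5 : (∑ t, s j (I t) * (M (Function.update I t i)).det : ℤ)
          = (M I).det * s j i := by
        rw [← h2]
        refine Finset.sum_congr rfl fun t _ => ?_
        rw [← h3 t]
      have h6 := congrArg (Int.cast : ℤ → k) h5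
      rw [Int.cast_mul, Int.cast_sum] at h6
      rw [← h6]
      exact Finset.sum_congr rfl fun t _ => by rw [Int.cast_mul, mul_comm]
    have h7 : (s j i : k) = (∑ t, ((M (Function.update I t i)).det : k) * (s j (I t) : k))
        / ((M I).det : k) := by
      rw [← h4]; field_simp
    rw [h7, Finset.sum_div]
    refine Finset.sum_congr rfl fun t _ => ?_
    simp only [a]; ring
  intro P hP
  let u : U := ⟨P, hP⟩
  have hrep : ∀ x, P x = ∑ j, c₁.repr u j * (s j x : k) := by
    intro x
    have h1 := c₁.sum_repr u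
    have h2 := congrArg (fun w : U => (w : ι → k) x) h1
    simp only [Submodule.coe_sum, Submodule.coe_smul, Finset.sum_apply, Pi.smul_apply,
      smul_eq_mul] at h2
    rw [show P x = (u : ι → k) x from rfl, ← h2]
    refine Finset.sum_congr rfl fun j _ => ?_
    rw [hs j]
  rw [hrep i]
  calc ∑ j, c₁.repr u j * (s j i : k)
      = ∑ j, ∑ t, a t * (c₁.repr u j * (s j (I t) : k)) := by
        refine Finset.sum_congr rfl fun j _ => ?_
        rw [hcr j, Finset.mul_sum]
        exact Finset.sum_congr rfl fun t _ => by ring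
    _ = ∑ t, ∑ j, a t * (c₁.repr u j * (s j (I t) : k)) := Finset.sum_comm
    _ = ∑ t, a t * P (I t) := by
        refine Finset.sum_congr rfl fun t _ => ?_
        rw [hrep (I t), Finset.mul_sum]

/-- **[SCALE]** every nonzero element can be scaled to an `O`-integral one with a coordinate one. -/
theorem scale [CharZero k] (O : ValuationSubring k) (l : ℕ) [hp : Fact l.Prime]
    (hl : (l : k) ∈ O.nonunits) {ι : Type*} (U : Submodule k (ι → k)) [FiniteDimensional k U]
    (hU : U ≤ span k {v | v ∈ U ∧ ∃ z : ι → ℤ, v = fun i => (z i : k)})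
    (P : ι → k) (hP : P ∈ U) (hP0 : P ≠ 0) :
    ∃ c : k, c ≠ 0 ∧ (∀ i, c * P i ∈ O) ∧ ∃ i, c * P i = 1 := by
  classical
  obtain ⟨d, I, hI⟩ := sat O l hl U hU
  have hne : ∃ t, P (I t) ≠ 0 := by
    by_contra hcon
    push Not at hcon
    apply hP0
    funext i
    obtain ⟨a, -, ha⟩ := hI i
    rw [ha P hP]
    simp [hcon]
  obtain ⟨t₀, ht₀⟩ := hne
  obtain ⟨t, -, ht⟩ := Finset.exists_max_image (Finset.univ : Finset (Fin d))
    (fun t => O.valuation (P (I t))) ⟨t₀, Finset.mem_univ _⟩
  have hpt : P (I t) ≠ 0 := by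
    intro h0
    have := ht t₀ (Finset.mem_univ _)
    rw [h0, map_zero] at this
    exact ht₀ ((map_eq_zero O.valuation).1 (le_antisymm this zero_le))
  refine ⟨(P (I t))⁻¹, inv_ne_zero hpt, fun i => ?_, I t, inv_mul_cancel₀ hpt⟩
  obtain ⟨a, ha, hs⟩ := hI i
  rw [hs P hP, Finset.mul_sum]
  refine sum_mem fun j _ => ?_
  have : (P (I t))⁻¹ * (a j * P (I j)) = a j * ((P (I t))⁻¹ * P (I j)) := by ring
  rw [this]
  refine mul_mem (ha j) ?_
  rw [← O.valuation_le_one_iff, map_mul, map_inv₀]
  have hv : O.valuation (P (I t)) ≠ 0 := (map_ne_zero O.valuation).2 hpt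
  have := ht j (Finset.mem_univ _)
  calc (O.valuation (P (I t)))⁻¹ * O.valuation (P (I j))
      ≤ (O.valuation (P (I t)))⁻¹ * O.valuation (P (I t)) := by gcongr
    _ = 1 := inv_mul_cancel₀ hv

end Vale.Agent.P022.H161
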